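import Vale.Agent.P111.QL.Defs
import Mathlib.Analysis.Fourier.FiniteAbelian.PontryaginDuality
import Mathlib.Topology.Algebra.PontryaginDual
import Mathlib.Topology.ContinuousMap.Compact
import Mathlib.Analysis.InnerProductSpace.Basic

/-! Definitions used in the statement of the hand-in `FourierSystems`. -/

namespace Vale.Agent.P111.FS

open Vale.Agent.P111

universe u v w

/-- `C_q(X) ≤ C` and `C_r(X*) ≤ C`. -/
def CC (q r C : ℝ) (X : Type*) [NormedAddCommGroup X] [NormedSpace ℝ X] : Prop :=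
  CotypeWith q C X ∧ CotypeWith r C (X →L[ℝ] ℝ)

/-- `C_q(X) < ∞` and `C_r(X*) < ∞`. -/
def HasCC (q r : ℝ) (X : Type*) [NormedAddCommGroup X] [NormedSpace ℝ X] : Prop :=
  HasCotype q X ∧ HasCotype r (X →L[ℝ] ℝ)

/-- `T` has finite rank. -/
def FinRank {X : Type*} [NormedAddCommGroup X] [NormedSpace ℝ X] (T : X →L[ℝ] X) : Prop :=
  FiniteDimensional ℝ (LinearMap.range (T : X →ₗ[ℝ] X))

/-- The rank of `T`. -/
noncomputable def rk {X : Type*} [NormedAddCommGroup X] [NormedSpace ℝ X] (T : X →L[ℝ] X) : ℝ :=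
  (Module.finrank ℝ (LinearMap.range (T : X →ₗ[ℝ] X)) : ℝ)

open Classical in
/-- The number of characters of `G` at which the real or the imaginary part of the Fourier
coefficient of `θ` has norm at least `ε`. -/
noncomputable def largeCoef {G : Type} [AddCommGroup G] [Fintype G] {E : Type*}
    [NormedAddCommGroup E] [NormedSpace ℝ E] (θ : G → E) (ε : ℝ) : ℕ :=
  (Finset.univ.filter fun b : AddChar G ℂ =>
    ε ≤ ‖avg fun x => (b x).re • θ x‖ ∨ ε ≤ ‖avg fun x => (b x).im • θ x‖).card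

/-- The Walsh coefficient with index `S` of the function `x ↦ T* (θ x)`. -/
noncomputable def walshCoef {X : Type*} [NormedAddCommGroup X] [NormedSpace ℝ X] (T : X →L[ℝ] X)
    {D : ℕ} (θ : (Fin D → ℤˣ) → (X →L[ℝ] ℝ)) (S : Finset (Fin D)) : X →L[ℝ] ℝ :=
  avg fun x : Fin D → ℤˣ => (∏ i ∈ S, sg (x i)) • (θ x).comp T

/-- There is a function `θ` on a cube with values in the unit ball of `X*`, such that the function
`x ↦ T* (θ x)` has at least `2 ^ n` Walsh coefficients of norm at least `ε`. -/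
def ManyLarge (ε : ℝ) (n : ℕ) {X : Type*} [NormedAddCommGroup X] [NormedSpace ℝ X]
    (T : X →L[ℝ] X) : Prop :=
  ∃ (D : ℕ) (θ : (Fin D → ℤˣ) → (X →L[ℝ] ℝ)) (Λ : Finset (Finset (Fin D))),
    (∀ x, ‖θ x‖ ≤ 1) ∧ 2 ^ n ≤ Λ.card ∧ ∀ S ∈ Λ, ε ≤ ‖walshCoef T θ S‖

/-- `(e_S)` is bounded and dominates the Walsh system of the Cantor group. -/
structure WalshSystem (B c : ℝ) {X : Type*} [NormedAddCommGroup X] [NormedSpace ℝ X]
    (e : Finset ℕ → X) : Prop where
  bdd : ∀ S, ‖e S‖ ≤ B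
  low : ∀ (s : Finset (Finset ℕ)) (a : Finset ℕ → ℝ) (x : ℕ → ℤˣ),
    c * |∑ S ∈ s, a S * ∏ i ∈ S, sg (x i)| ≤ ‖∑ S ∈ s, a S • e S‖

/-- For a sequence of `D` there are operators of norm at most `B` and of rank `exp (o(D log D))`
which fix `e_S` for all `S ⊆ {0, …, D - 1}`. -/
def SlowApprox (B : ℝ) {X : Type*} [NormedAddCommGroup X] [NormedSpace ℝ X]
    (e : Finset ℕ → X) : Prop :=
  ∀ s : ℝ, 0 < s → ∀ D₀ : ℕ, ∃ D ≥ D₀, ∃ T : X →L[ℝ] X, ‖T‖ ≤ B ∧
    (∀ S ⊆ Finset.range D, T (e S) = e S) ∧ FinRank T ∧ rk T ≤ Real.exp (s * D * Real.log D)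

/-- `E` is a homogeneous Banach space of continuous functions on `G` (embedded by `e`, with
translations `τ`), containing the real parts of the characters as a bounded family `w`. -/
structure Homogeneous (B : ℝ) {G : Type*} [CommGroup G] [TopologicalSpace G] {E : Type*}
    [NormedAddCommGroup E] [NormedSpace ℝ E] [CompactSpace G]
    (e : E →L[ℝ] C(G, ℂ)) (τ : G → E → E) (w : (G →ₜ* Circle) → E) : Prop where
  inj : Function.Injective e
  trans : ∀ g f x, e (τ g f) x = e f (x * g)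
  norm : ∀ g f, ‖τ g f‖ = ‖f‖
  cont : ∀ f, Continuous fun g => τ g f
  char : ∀ J x, e (w J) x = ((J x : ℂ).re : ℂ)
  bdd : ∀ J, ‖w J‖ ≤ B

end Vale.Agent.P111.FS
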