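import Vale.Agent.P111.FS.Defs
import Vale.Agent.P111.TW.G
import Vale.Agent.P111.WF.Fd
import Vale.Agent.P111.WF.Hom
import Vale.Agent.P111.EZ.Main

/-!
The parts of the hand-in `FourierSystems`, in terms of the definitions of `FS/Defs.lean`.
-/

namespace Vale.Agent.P111.FS

open Finset Vale.Agent.P111

universe u v w

theorem fin (q r C ε η : ℝ) (hq : 2 ≤ q) (hr : 2 ≤ r) (hε : 0 < ε) (hη : 0 < η) :
    ∃ K : ℝ, ∀ (E : Type v) [NormedAddCommGroup E] [NormedSpace ℝ E]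
      [FiniteDimensional ℝ E] [Nontrivial E], CC q r C E →
      ∀ (G : Type) [AddCommGroup G] [Fintype G] (θ : G → E), (∀ x, ‖θ x‖ ≤ 1) →
      (largeCoef θ ε : ℝ) ≤ K * (Module.finrank ℝ E : ℝ) ^ η := by
  classical
  obtain ⟨K, hK⟩ := WF.fd_main.{v} q r C ε η hq hr hε hη
  refine ⟨K, fun E _ _ _ _ hE G _ _ θ hθ => ?_⟩
  have h := hK E hE.1 hE.2 G θ hθ
  unfold largeCoef
  convert h

theorem rank (q r C ε : ℝ) (hq : 2 ≤ q) (hr : 2 ≤ r) (hε : 0 < ε) :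
    ∃ s : ℝ, 0 < s ∧ ∃ n₀ : ℕ, ∀ n ≥ n₀, ∀ (X : Type v) [NormedAddCommGroup X] [NormedSpace ℝ X]
      (T : X →L[ℝ] X), CC q r C X → ‖T‖ ≤ C →
      FiniteDimensional ℝ (LinearMap.range (T : X →ₗ[ℝ] X)) → ManyLarge ε n T →
      Real.exp (s * n * Real.log n) ≤ Module.finrank ℝ (LinearMap.range (T : X →ₗ[ℝ] X)) := by
  obtain ⟨s, hs, n₀, h⟩ := TW.op_rate.{v} q r C ε hq hr hε
  refine ⟨s, hs, n₀, fun n hn X _ _ T hX hT hfd hM => ?_⟩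
  obtain ⟨D, θ, Λ, hθ, hΛ, hl⟩ := hM
  exact h X T hX.1 hX.2 hT hfd D θ hθ Λ hl n hn hΛ

theorem hilb (q r C ε : ℝ) (hq : 2 ≤ q) (hr : 2 ≤ r) (hε : 0 < ε) :
    ∃ s : ℝ, 0 < s ∧ ∃ n₀ : ℕ, ∀ n ≥ n₀, ∀ (X : Type v) [NormedAddCommGroup X] [NormedSpace ℝ X]
      (H : Type w) [NormedAddCommGroup H] [InnerProductSpace ℝ H] [CompleteSpace H]
      (a : X →L[ℝ] H) (b : H →L[ℝ] X), CC q r C X → ‖b.comp a‖ ≤ C → ManyLarge ε n (b.comp a) →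
      Real.exp (s * n * Real.log n) ≤ (‖a‖ * ‖b‖) ^ 2 := by
  obtain ⟨s, hs, n₀, h⟩ := TW.hilb_rate.{v, w} q r C ε hq hr hε
  refine ⟨s, hs, n₀, fun n hn X _ _ H _ _ _ a b hX hT hM => ?_⟩
  obtain ⟨D, θ, Λ, hθ, hΛ, hl⟩ := hM
  exact h X H a b hX.1 hX.2 hT D θ hθ Λ hl n hn hΛ

theorem inf (q r B c : ℝ) (hc : 0 < c) (X : Type v) [NormedAddCommGroup X] [NormedSpace ℝ X]
    (e : Finset ℕ → X) (he : WalshSystem B c e)
    (hT : ∀ s : ℝ, 0 < s → ∀ D₀ : ℕ, ∃ D ≥ D₀, ∃ T : X →L[ℝ] X, ‖T‖ ≤ B ∧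
      (∀ S ⊆ Finset.range D, T (e S) = e S) ∧
      FiniteDimensional ℝ (LinearMap.range (T : X →ₗ[ℝ] X)) ∧
      (Module.finrank ℝ (LinearMap.range (T : X →ₗ[ℝ] X)) : ℝ) ≤
        Real.exp (s * D * Real.log D)) :
    ¬ (HasCotype q X ∧ HasCotype r (X →L[ℝ] ℝ)) :=
  TW.inf_rate q r X e B c hc he.bdd he.low hT

theorem hom (q r B : ℝ) (G : Type u) [CommGroup G] [TopologicalSpace G] [IsTopologicalGroup G]
    [CompactSpace G] [Infinite (G →ₜ* Circle)] (E : Type v) [NormedAddCommGroup E]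
    [NormedSpace ℝ E] [CompleteSpace E] (e : E →L[ℝ] C(G, ℂ)) (τ : G → E → E)
    (w : (G →ₜ* Circle) → E) (h : Homogeneous B e τ w) :
    ¬ (HasCotype q E ∧ HasCotype r (E →L[ℝ] ℝ)) :=
  WF.hom_main q r G E e h.inj τ h.trans h.norm h.cont B w h.char h.bdd

theorem link (q r : ℝ) (h : ∀ C : ℝ, ∃ n : ℕ, ∀ (Y : Type u) [NormedAddCommGroup Y]
    [NormedSpace ℝ Y] [CompleteSpace Y] (T : Y →L[ℝ] Y), CC q r C Y → ‖T‖ ≤ 1 →
    FiniteDimensional ℝ (LinearMap.range (T : Y →ₗ[ℝ] Y)) → ¬ ManyLarge (1 / 10 ^ 7) n T)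
    (X : Type u) [NormedAddCommGroup X] [NormedSpace ℝ X] [CompleteSpace X]
    (hB : HasBAP X) (hq : HasCotype q X) (hr : HasCotype r (X →L[ℝ] ℝ)) : IsKConvex X := by
  classical
  refine EZ.q1_of_count (q := q) (r := r) ?_ X hB hq hr
  intro C
  obtain ⟨n, hn⟩ := h C
  refine ⟨2 ^ n, fun Y _ _ _ h1 h2 T hfd hT D θ hθ => ?_⟩
  by_contra hlt
  rw [not_le] at hlt
  refine hn Y T ⟨h1, h2⟩ hT hfd ⟨D, θ, (Finset.univ.filter fun k : Fin D =>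
    (1:ℝ) / 10000000 ≤ ‖avg fun x : Fin D → ℤˣ => sg (x k) • (θ x).comp T‖).image
      (fun k => {k}), hθ, ?_, ?_⟩
  · rw [Finset.card_image_of_injective _ Finset.singleton_injective]
    have : ((2 ^ n : ℕ) : ℝ) < (#(Finset.univ.filter fun k : Fin D =>
        (1:ℝ) / 10000000 ≤ ‖avg fun x : Fin D → ℤˣ => sg (x k) • (θ x).comp T‖) : ℝ) := by
      push_cast
      convert hlt
    exact_mod_cast this.le
  · intro S hS
    obtain ⟨k, hk, rfl⟩ := Finset.mem_image.1 hS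
    have h3 := (Finset.mem_filter.1 hk).2
    unfold walshCoef
    simp only [Finset.prod_singleton]
    norm_num at h3 ⊢
    exact h3

end Vale.Agent.P111.FS
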